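import Vale.Agent.P237.Asym.Main

namespace Vale.Agent.Results.P237.AsymptoticallySharp

open MeasureTheory Set Vale.Agent.P237

/-- Petty's inequality holds up to a subexponential factor: `(R_n(K) / R_n(ball))^(1/n)` is at least
`1 - ε` for every convex body in all sufficiently high dimensions. -/
theorem result :
    (∀ ε : ℝ, 0 < ε → ε < 1 → ∃ N : ℕ, ∀ n ≥ N, ∀ K : Set (EuclideanSpace ℝ (Fin n)),
      IsCompact K → Convex ℝ K → (interior K).Nonempty →
        (1 - ε) ^ n * (Asym.kap (n - 1) ^ n / Asym.kap n ^ (n - 2)) * volume.real K ^ (n - 1) ≤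
          volume.real (projBody K)) ∧
    (∀ n, 3 ≤ n → ∀ K : Set (EuclideanSpace ℝ (Fin n)),
      IsCompact K → Convex ℝ K → (interior K).Nonempty →
        Asym.kap 2 ^ 3 / Asym.kap 3 * (∏ k ∈ Finset.Ioc 3 n, Asym.kap k ^ ((k : ℝ)⁻¹)) *
          volume.real K ^ (n - 1) ≤ volume.real (projBody K)) ∧
    (∀ K : Set (EuclideanSpace ℝ (Fin 4)),
      IsCompact K → Convex ℝ K → (interior K).Nonempty →
        87 / 100 * (Asym.kap 3 ^ 4 / Asym.kap 4 ^ 2) * volume.real K ^ 3 ≤
          volume.real (projBody K)) := by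
  refine ⟨fun ε hε hε1 => ?_, fun n hn K hK hKc _ => ?_, fun K hK hKc _ => ?_⟩
  · obtain ⟨N, hN⟩ := Asym.asymptotically_sharp hε hε1
    exact ⟨N, fun n hn K hK hKc _ => hN n hn _ (by simp) K hK hKc⟩
  · exact Asym.bound_three n hn _ (by simp) K hK hKc
  · refine le_trans ?_ (Asym.bound_three 4 (by norm_num) _ (by simp) K hK hKc)
    refine mul_le_mul_of_nonneg_right ?_ (pow_nonneg measureReal_nonneg _)
    rw [show Finset.Ioc 3 4 = {4} by decide, Finset.prod_singleton]
    have h4 : Asym.kap 4 = Real.pi ^ 2 / 2 := by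
      rw [Asym.kap, measureReal_def, InnerProductSpace.volume_closedBall_of_dim_even (k := 2) (by simp)]
      simp [Nat.factorial]
      positivity
    have h3 : (0 : ℝ) ≤ Real.pi * 4 / 3 := by positivity
    rw [h4, Asym.kap, Asym.kap, measureReal_def, measureReal_def,
      EuclideanSpace.volume_closedBall_fin_two, EuclideanSpace.volume_closedBall_fin_three]
    simp only [ENNReal.ofReal_one, one_pow, one_mul, ENNReal.toReal_ofReal Real.pi_pos.le,
      ENNReal.toReal_ofReal h3]
    have hp := Real.pi_gt_d4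
    have hq : (149 / 100 : ℝ) ≤ (Real.pi ^ 2 / 2) ^ ((4 : ℕ) : ℝ)⁻¹ := by
      refine le_of_pow_le_pow_left₀ (n := 4) (by norm_num) (by positivity) ?_
      rw [Real.rpow_inv_natCast_pow (by positivity) (by norm_num)]
      nlinarith
    rw [show (Real.pi * 4 / 3) ^ 4 / (Real.pi ^ 2 / 2) ^ 2 = 1024 / 81 by field_simp; ring,
      show Real.pi ^ 3 / (Real.pi * 4 / 3) = 3 / 4 * Real.pi ^ 2 by field_simp]
    nlinarith

end Vale.Agent.Results.P237.AsymptoticallySharp
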