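import Vale.Agent.P237.Petty.EventualShort
import Vale.Agent.P237.Petty.Tail.Main

namespace Vale.Agent.Results.P237.PettyAbsoluteConstant

open MeasureTheory Vale.Agent.P237

/-- Petty's inequality holds up to one absolute constant; in every large dimension, any constant
valid for the symmetric bodies is valid for all bodies of each larger dimension, and the sharp
constant then forces the ellipsoids in the case of equality. -/
theorem result :
    (∃ c : ℝ, 0 < c ∧ ∀ n ≥ 3, ∀ K : Set (EuclideanSpace ℝ (Fin n)), Petty.Body K →
      c * Petty.cPetty n * volume.real K ^ (n - 1) ≤ volume.real (projBody K)) ∧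
    (∃ N₀ : ℕ, ∀ n ≥ N₀, ∀ c > (0 : ℝ),
      (∀ K : Set (EuclideanSpace ℝ (Fin n)), Petty.Body K → -K = K →
        c * Petty.cPetty n * volume.real K ^ (n - 1) ≤ volume.real (projBody K)) →
      ∀ l > n, ∀ K : Set (EuclideanSpace ℝ (Fin l)), Petty.Body K →
        c * Petty.cPetty l * volume.real K ^ (l - 1) ≤ volume.real (projBody K) ∧
        (c = 1 → (volume.real (projBody K) = Petty.cPetty l * volume.real K ^ (l - 1) ↔
          Petty.IsEllipsoidSet K))) :=
  have ⟨_, hN, hs⟩ := Petty.Tail.stepHolds_eventually
  Petty.eventual_short_of_steps hN hs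

end Vale.Agent.Results.P237.PettyAbsoluteConstant
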