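import Vale.Agent.P237.Petty.Cor.AssembleAll

namespace Vale.Agent.Results.P237.PettyConjecture

open MeasureTheory Set Vale.Agent.P237

/-- Petty's projection volume inequality in every dimension at least three, with equality exactly
at ellipsoids; the set `projBody K` has the projection areas as its support values. -/
theorem result :
    ∀ n : ℕ, 3 ≤ n → ∀ K : Set (EuclideanSpace ℝ (Fin n)),
      IsCompact K → Convex ℝ K → (interior K).Nonempty →
      (∀ u : EuclideanSpace ℝ (Fin n), ‖u‖ = 1 →
        sSup ((fun y => inner ℝ u y) '' projBody K) = area K u) ∧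
      volume.real (Metric.closedBall (0 : EuclideanSpace ℝ (Fin (n - 1))) 1) ^ n /
          volume.real (Metric.closedBall (0 : EuclideanSpace ℝ (Fin n)) 1) ^ (n - 2) *
        volume.real K ^ (n - 1) ≤ volume.real (projBody K) ∧
      (volume.real (projBody K) =
          volume.real (Metric.closedBall (0 : EuclideanSpace ℝ (Fin (n - 1))) 1) ^ n /
            volume.real (Metric.closedBall (0 : EuclideanSpace ℝ (Fin n)) 1) ^ (n - 2) *
          volume.real K ^ (n - 1) ↔
        ∃ (T : EuclideanSpace ℝ (Fin n) ≃L[ℝ] EuclideanSpace ℝ (Fin n))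
          (a : EuclideanSpace ℝ (Fin n)),
          K = (fun x => a + x) '' (T '' Metric.closedBall 0 1)) := by
  intro n hn K hK hKc hne
  haveI : Nonempty (Fin n) := ⟨⟨0, by omega⟩⟩
  refine ⟨fun u hu => Petty.support_area ⟨hK, hKc, hne⟩ hu, ?_⟩
  exact Petty.Cor.petty_of_corBounds Petty.Cor.corBounds_all hn
    (E := EuclideanSpace ℝ (Fin n)) (by simp) ⟨hK, hKc, hne⟩

end Vale.Agent.Results.P237.PettyConjecture
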